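import Vale.Agent.P281.H511.E.Form
import Vale.Agent.P281.H349.U.Has

/-!
# P281, project T-E, block E4 (helper511): the forms of a multi-valued Albanese family (`HasMStmt`)
-/

open scoped Manifold ContDiff Topology
open Set Filter Metric Module

namespace Vale.Agent.P281.H511.E

open Vale.Agent.P281 Vale.Agent.P281.MF Vale.Agent.P281.ISO Vale.Agent.P281.ELL
open Vale.Agent.P281.H713 Vale.Agent.P281.H64.TU
open Vale.Agent.P281.H349.U (IsTerm tu nu isTerm_tu rank_map full_map nc_prep nc_limit)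
open Vale.Agent.P281.H64.TK.TE (IsAlbM HasMStmt)

set_option linter.unusedSectionVars false

section Forms

variable {E E' : Type} [NormedAddCommGroup E] [NormedSpace ℂ E] [FiniteDimensional ℂ E]
  [NormedAddCommGroup E'] [NormedSpace ℂ E'] [FiniteDimensional ℂ E']
variable {X Y : Type} [TopologicalSpace X] [ChartedSpace E X] [IsManifold 𝓘(ℂ, E) ω X]
  [TopologicalSpace Y] [ChartedSpace E' Y] [IsManifold 𝓘(ℂ, E') ω Y]
variable {V : Type} [NormedAddCommGroup V] [InnerProductSpace ℂ V] [FiniteDimensional ℂ V]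
variable {n d r : ℕ} {Q : (Fin n → ℝ) → (Fin n → ℝ) → ℝ}
variable {f : X → Y} {S : Set Y} {ι : Type} {U : ι → Set Y}
  {π : ι → Y → ((Fin n → ℝ) ≃L[ℝ] V)} {L : ι → X → (X → V) → Prop} {𝒯 : Tame (Fin d → ℂ) X}

theorem hasForms_albM (hC : IsAlbM E E' d r 𝒯 f S Q U π L) (hd : 0 < d)
    (hf : ∀ x, HolM E E' f x) (e₀ : E ≃L[ℂ] (E' × (Fin d → ℂ))) {Δ : Set X → ℝ}
    (hΔ : ∀ D, 0 ≤ Δ D) {y : Y} (hy : y ∉ S) : HasFormsT 𝒯 f S e₀ Δ r y := by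
  classical
  have hn' : (ω : WithTop ℕ∞) ≠ 0 := by simp
  obtain ⟨a₀, ha₀⟩ := (hC.cover y).1 hy
  obtain ⟨G₀, h₀⟩ : ∃ G₀, IsPol Q (π a₀ y) G₀ := hC.polarized a₀ y ha₀
  obtain ⟨q, v₀, hq, hfq, hnd⟩ := hC.nondeg a₀ y ha₀
  have hfx₀ : f (q v₀) = y := hfq.self_of_nhds
  have hfa : f (q v₀) ∈ U a₀ := by rw [hfx₀]; exact ha₀
  obtain ⟨β, hβ⟩ := hC.lift a₀ (q v₀) hfa
  have hβh : HolV E β (q v₀) := hC.liftHol a₀ (q v₀) β hβ
  set b : (Fin d → ℂ) → V := fun v => β (q v) with hb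
  have hbc : ContDiffAt ℂ ω b v₀ := (slice_fderiv hq hβh).1
  have hqt : Tendsto q (𝓝 v₀) (𝓝 (q v₀)) := hq.continuousAt
  have hndb : IsNondegR r b v₀ := hnd β hβ
  obtain ⟨t', ht'⟩ := hndb.rank
  have hn : 0 < n := pos_of_period (π a₀ y) (finrank_pos_of_minor hd ht'.1)
  -- good points
  have hq' : ∀ᶠ v in 𝓝 v₀, ContMDiffAt 𝓘(ℂ, Fin d → ℂ) 𝓘(ℂ, E) ω q v :=
    (contMDiffAt_iff_contMDiffAt_nhds (by simp)).1 hq
  have hgood : ∀ᶠ v in 𝓝 v₀, (∃ P, SlG E f q v (q v) P) ∧ L a₀ (q v) β ∧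
      f (q v) = y ∧ ContDiffAt ℂ ω b v := by
    filter_upwards [hq', eventually_eventually_nhds.2 hfq, hqt.eventually (HolV.eventually hβh),
      hqt.eventually (hC.near a₀ (q v₀) β hβ),
      (minor_contDiffAt (t' 0) hbc).continuousAt.eventually_ne ht'.1,
      hbc.eventually (by simp)] with v h1 h2 h3 h4 h5 h6
    obtain ⟨P, hP⟩ := slice_leftInv h1 h3 h5
    have h8 : f (q v) = y := h2.self_of_nhds
    refine ⟨⟨P, rfl, h1, ?_, hP⟩, h4, h8, h6⟩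
    filter_upwards [h2] with z hz
    rw [hz, h8]
  set e : Basis (Fin (finrank ℂ V)) ℂ V := finBasis ℂ V with he
  set h : (Fin d → ℂ) → V := fun v => G₀ (b v) with hh
  obtain ⟨t₁, ht₁, ht₁i⟩ := rank_map hbc ht' G₀
  obtain ⟨v₁, hg₁, hhv₁, ht, ht0, hgen, i₀, l, R₀, m, hm, hm0, hmax⟩ :=
    nc_prep hn h₀ (cd_map hbc (G₀ : V →L[ℂ] V)) ht₁ ht₁i (full_map hndb.full G₀) e
      (eventually_eventually_nhds.2 hgood)
  obtain ⟨k, D, Ψ, hΨ, hD, hk, hs0, hind⟩ := nc_limit hn h₀ hhv₁ ht ht0 hgen hm hm0 hmax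
  have hT : ∀ j, IsTerm (k * nu l + D) k (tu e i₀ l m k (Ψ j)) := fun j =>
    isTerm_tu e i₀ l m k (hΨ j)
  choose Θ hΘ using fun j => exists_form (π₀ := π a₀ y) (G₀ := G₀) hC hf e₀ (hT j)
  have hrel : ∀ j, RelFormT 𝒯 f S e₀ (k * nu l + D) ∅ (fun _ => 0) (Θ j) := fun j =>
    relForm hC hn hf e₀ (hT j) hk h₀ (hΘ j)
  obtain ⟨⟨P₁, hP₁⟩, hL₁, hy₁, -⟩ := hg₁.self_of_nhds
  set x₁ := q v₁ with hx₁
  have hxS : f x₁ ∉ S := by rw [hy₁]; exact hy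
  obtain ⟨ζ, hζ, hinj⟩ := hC.coord x₁ hxS
  -- the values along the slice
  set s : Fin (r + 1) → (Fin d → ℂ) → ℂ := fun j v =>
    ∑' M : spq Q, tu e i₀ l m k (Ψ j) (fun u => Cc (π a₀ y) G₀ M (h u)) v with hs
  have hgs : ∀ j v, gval Q (π a₀ y) G₀ (tu e i₀ l m k (Ψ j)) (π a₀ y) b v = s j v := by
    intro j v
    unfold gval
    refine tsum_congr fun M => ?_
    have h3 : (fun u => LN (π a₀ y) G₀ (π a₀ y) (mx M) (b u)) =
        fun u => Cc (π a₀ y) G₀ M (h u) := by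
      funext u
      exact LN_eq M (b u)
    rw [h3]
  have hval : ∀ᶠ v in 𝓝 v₁, ∃ J : ℂ, J ≠ 0 ∧ ∀ j, Θ j (q v) = s j v * J := by
    filter_upwards [hg₁] with v hv
    obtain ⟨⟨P, hP⟩, hL, hyv, -⟩ := hv
    obtain ⟨ζ', hζ', hinj'⟩ := hC.coord (q v) (by rw [hyv]; exact hy)
    refine ⟨JP e₀ (dM E E' f (q v)) P ^ (k * nu l + D), ?_, fun j => ?_⟩
    · have h8 := JP_slice hf e₀ hP.2.1 hP.2.2.1 hζ' hinj' hP.2.2.2
      have h9 : JP e₀ (dM E E' f (q v)) (dV E ζ' (q v)) ≠ 0 := H713.JP_ne_zero e₀ hinj'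
      refine pow_ne_zero _ fun h0 => h9 ?_
      rw [h8, h0, mul_zero]
    · have h1 := hΘ j a₀ (q v) (by rw [hyv]; exact ha₀) β hL q v P hP
      rw [h1, hyv]
      have h2 := hgs j v
      rw [← h2]
  obtain ⟨J₁, hJ₁, hΘ₁⟩ := hval.self_of_nhds
  have hΘ0 : Θ 0 x₁ ≠ 0 := by
    show Θ 0 (q v₁) ≠ 0
    rw [hΘ₁ 0]
    exact mul_ne_zero hs0 hJ₁
  -- local expressions
  choose c hc hce using fun j => form_local hC hn hf e₀ (hT j) (by omega) h₀ (hΘ j) hxS hζ hinj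
  have hc0 : c 0 x₁ ≠ 0 := by
    intro h0
    apply hΘ0
    rw [(hce 0).self_of_nhds, h0, zero_mul]
  have hev : ∀ᶠ z in 𝓝 x₁, Θ 0 z ≠ 0 ∧ ∀ j, Θ j z / Θ 0 z = c j z / c 0 z := by
    filter_upwards [(Filter.eventually_all).2 hce, (hc 0).continuousAt.eventually_ne hc0,
      ker_eventually hf e₀ hζ hinj] with z h1 h2 h3
    have h5 := pow_ne_zero (k * nu l + D) (H713.JP_ne_zero e₀ h3)
    refine ⟨by rw [h1 0]; exact mul_ne_zero h2 h5, fun j => ?_⟩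
    rw [h1 j, h1 0]
    exact mul_div_mul_right _ _ h5
  have hratio : ∀ j, HolV E (fun z => Θ j z / Θ 0 z) x₁ := fun j =>
    ((hc j).div (hc 0) hc0).congr (hev.mono fun z hz => hz.2 j)
  refine ⟨k * nu l + D, ∅, fun _ => 0, Θ 0, fun j => Θ j.succ, by omega,
    Set.finite_empty, fun D hD => absurd hD (Set.notMem_empty D), hrel 0,
    fun j => hrel j.succ, ?_, x₁, hy₁, hev.mono fun z hz => hz.1, fun j => hratio j.succ, ?_⟩
  · intro D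
    have := hΔ D
    rw [Nat.cast_zero]
    positivity
  · intro a ha
    have h1 := hind a fun ξ => ?_
    · exact fun j => congrFun h1 j
    · have hqv : ContMDiffAt 𝓘(ℂ, Fin d → ℂ) 𝓘(ℂ, E) ω q v₁ := hP₁.2.1
      have h2 := ha ((mfderiv 𝓘(ℂ, Fin d → ℂ) 𝓘(ℂ, E) q v₁ : (Fin d → ℂ) →L[ℂ] E) ξ)
        (slice_ker hf hqv hP₁.2.2.1 ξ)
      rw [← h2]
      refine Finset.sum_congr rfl fun j _ => ?_
      congr 1
      have h3 : (fun w => s j.succ w / s 0 w) =ᶠ[𝓝 v₁]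
          fun w => Θ j.succ (q w) / Θ 0 (q w) := by
        filter_upwards [hval] with w hw
        obtain ⟨J, hJ, hJe⟩ := hw
        rw [hJe, hJe, mul_div_mul_right _ _ hJ]
      have h4 := (slice_fderiv hqv (hratio j.succ)).2
      have h5 := h3.fderiv_eq (𝕜 := ℂ)
      rw [h4] at h5
      exact congrArg (fun L : (Fin d → ℂ) →L[ℂ] ℂ => L ξ) h5

end Forms

/-- **E4** -/
theorem hasM : HasMStmt := by
  intro p d r n g X Y _ _ _ _ _ _ 𝒯 f S Q ι U π L e₀ Δ hd _ hf hC hΔ y hy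
  exact hasForms_albM hC hd (fun x => hf x) e₀ hΔ hy

end Vale.Agent.P281.H511.E
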