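import Vale.Agent.P281.H349.U.Form
import Vale.Agent.P281.H64.TE.Spec

/-!
# P281, project T-E (helper511): the relative forms of a multi-valued Albanese family
-/

open scoped Manifold ContDiff Topology
open Set Filter Metric Module

namespace Vale.Agent.P281.H511.E

open Vale.Agent.P281 Vale.Agent.P281.MF Vale.Agent.P281.ISO Vale.Agent.P281.ELL
open Vale.Agent.P281.H713 Vale.Agent.P281.H64.TU
open Vale.Agent.P281.H349.U (IsTerm gvl_slice gvl_affine gvl_congr gvl_analytic gvl_bound)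
open Vale.Agent.P281.H64.TK.TE (IsAlbM)

set_option linter.unusedSectionVars false

section Forms

variable {E E' : Type} [NormedAddCommGroup E] [NormedSpace ℂ E] [FiniteDimensional ℂ E]
  [NormedAddCommGroup E'] [NormedSpace ℂ E'] [FiniteDimensional ℂ E']
variable {X Y : Type} [TopologicalSpace X] [ChartedSpace E X] [IsManifold 𝓘(ℂ, E) ω X]
  [TopologicalSpace Y] [ChartedSpace E' Y] [IsManifold 𝓘(ℂ, E') ω Y]
variable {V : Type} [NormedAddCommGroup V] [InnerProductSpace ℂ V] [FiniteDimensional ℂ V]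
variable {n d r : ℕ} {Q : (Fin n → ℝ) → (Fin n → ℝ) → ℝ}
variable {f : X → Y} {S : Set Y} {ι : Type} {U : ι → Set Y}
  {π : ι → Y → ((Fin n → ℝ) ≃L[ℝ] V)} {L : ι → X → (X → V) → Prop} {𝒯 : Tame (Fin d → ℂ) X}

variable {wt k : ℕ} {T : ((Fin d → ℂ) → V) → (Fin d → ℂ) → ℂ}
  {π₀ : (Fin n → ℝ) ≃L[ℝ] V} {G₀ : V ≃L[ℂ] V}

/-- the value of the form is well defined -/
theorem gvl_indep (hC : IsAlbM E E' d r 𝒯 f S Q U π L) (hf : ∀ x, HolM E E' f x)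
    (e₀ : E ≃L[ℂ] (E' × (Fin d → ℂ))) (hT : IsTerm wt k T) {a b : ι} {x : X}
    (ha : f x ∈ U a) (hb : f x ∈ U b) {β β' : X → V} (hβ : L a x β)
    (hβ' : L b x β') {q q' : (Fin d → ℂ) → X} {v v' : Fin d → ℂ}
    {P P' : E →L[ℂ] (Fin d → ℂ)} (hq : SlG E f q v x P) (hq' : SlG E f q' v' x P') :
    gval Q π₀ G₀ T (π a (f x)) (fun t => β (q t)) v * JP e₀ (dM E E' f x) P ^ wt =
      gval Q π₀ G₀ T (π b (f x)) (fun t => β' (q' t)) v' * JP e₀ (dM E E' f x) P' ^ wt := by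
  obtain ⟨G, c, hG, hGc⟩ := hC.change a b x ha hb β β' hβ hβ'
  obtain ⟨ζ, hζ, hinj⟩ := hC.coord x ((hC.cover _).2 ⟨a, ha⟩)
  obtain ⟨R, hR1, hR2, -⟩ := exists_slices hf e₀ hζ hinj
  have hβh : HolV E β x := hC.liftHol a x β hβ
  rw [gvl_slice hf e₀ hT _ hζ hinj hR1 hR2 hβh hq]
  rw [← gvl_slice hf e₀ hT (π a (f x)) hζ hinj hR1 hR2 hβh hq']
  congr 1
  obtain ⟨hq0, hq1, hq2, -⟩ := hq'
  have hbc : ContDiffAt ℂ ω (fun t => β (q' t)) v' := by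
    have h1 : HolV E β (q' v') := by rw [hq0]; exact hβh
    exact (slice_fderiv hq1 h1).1
  rw [← gvl_affine hT hG c hbc]
  refine gvl_congr hT ?_
  have hqt : Tendsto q' (𝓝 v') (𝓝 x) := by
    have := hq1.continuousAt.tendsto
    rwa [hq0] at this
  filter_upwards [hqt.eventually hGc, hq2] with t h1 h2
  exact (h1 h2).symm

/-- the property which characterizes the form `Θ` -/
def IsVal (e₀ : E ≃L[ℂ] (E' × (Fin d → ℂ))) (Q : (Fin n → ℝ) → (Fin n → ℝ) → ℝ)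
    (π₀ : (Fin n → ℝ) ≃L[ℝ] V) (G₀ : V ≃L[ℂ] V) (T : ((Fin d → ℂ) → V) → (Fin d → ℂ) → ℂ)
    (wt : ℕ) (f : X → Y) (U : ι → Set Y) (π : ι → Y → ((Fin n → ℝ) ≃L[ℝ] V))
    (L : ι → X → (X → V) → Prop) (Θ : X → ℂ) : Prop :=
  ∀ a x, f x ∈ U a → ∀ β, L a x β → ∀ q v P, SlG E f q v x P →
    Θ x = gval Q π₀ G₀ T (π a (f x)) (fun t => β (q t)) v * JP e₀ (dM E E' f x) P ^ wt

/-- the forms -/
theorem exists_form (hC : IsAlbM E E' d r 𝒯 f S Q U π L) (hf : ∀ x, HolM E E' f x)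
    (e₀ : E ≃L[ℂ] (E' × (Fin d → ℂ))) (hT : IsTerm wt k T) :
    ∃ Θ : X → ℂ, IsVal e₀ Q π₀ G₀ T wt f U π L Θ := by
  classical
  have hex : ∀ x, ∃ θ : ℂ, ∀ a, f x ∈ U a → ∀ β, L a x β → ∀ q v P,
      SlG E f q v x P →
      θ = gval Q π₀ G₀ T (π a (f x)) (fun t => β (q t)) v * JP e₀ (dM E E' f x) P ^ wt := by
    intro x
    by_cases hx : ∃ a, f x ∈ U a
    · obtain ⟨a, ha⟩ := hx
      obtain ⟨β, hβ⟩ := hC.lift a x ha
      obtain ⟨ζ, hζ, hinj⟩ := hC.coord x ((hC.cover _).2 ⟨a, ha⟩)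
      obtain ⟨R, hR1, hR2, hR3⟩ := exists_slices hf e₀ hζ hinj
      have hq := (slg_near hf hζ hR1 hR2 hR3).self_of_nhds
      exact ⟨_, fun b hb β' hβ' q' v' P' hq' => gvl_indep hC hf e₀ hT ha hb hβ hβ' hq hq'⟩
    · exact ⟨0, fun a ha => absurd ⟨a, ha⟩ hx⟩
  choose Θ hΘ using hex
  exact ⟨Θ, fun a x => hΘ x a⟩

/-- holomorphy of the coefficients -/
theorem form_local (hC : IsAlbM E E' d r 𝒯 f S Q U π L) (hn : 0 < n)
    (hf : ∀ x, HolM E E' f x) (e₀ : E ≃L[ℂ] (E' × (Fin d → ℂ))) (hT : IsTerm wt k T)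
    (hk : n * n + 1 ≤ k) (h₀ : IsPol Q π₀ G₀) {Θ : X → ℂ}
    (hΘ : IsVal e₀ Q π₀ G₀ T wt f U π L Θ) {x : X} (hx : f x ∉ S) {ζ : X → (Fin d → ℂ)}
    (hζ : HolV E ζ x) (hinj : ∀ ξ, dM E E' f x ξ = 0 → dV E ζ x ξ = 0 → ξ = 0) :
    ∃ (c : X → ℂ), HolV E c x ∧
      ∀ᶠ z in 𝓝 x, Θ z = c z * JP e₀ (dM E E' f z) (dV E ζ z) ^ wt := by
  obtain ⟨a, ha⟩ := (hC.cover (f x)).1 hx
  obtain ⟨β, hβ⟩ := hC.lift a x ha
  have hβh : HolV E β x := hC.liftHol a x β hβ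
  obtain ⟨R, hR1, hR2, hR3⟩ := exists_slices hf e₀ hζ hinj
  set ψ := chartAt E' (f x) with hψ
  have hys : f x ∈ ψ.source := mem_chart_source E' (f x)
  have hR0 : R (ψ (f x), ζ x) = x := hR2.self_of_nhds
  have hpair : HolV E (fun z => (ψ (f z), ζ z)) x :=
    (HolV.comp (h := (ψ : Y → E')) (HolV.chart hys) (hf x)).prodMk hζ
  have hB : ContDiffAt ℂ ω (fun p => β (R p)) (ψ (f x), ζ x) := by
    have h1 : HolV E β (R (ψ (f x), ζ x)) := by rw [hR0]; exact hβh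
    exact (slice_fderiv hR1 h1).1
  set U₁ : Set E' := ψ.target ∩ ψ.symm ⁻¹' (U a) with hU₁
  have hU₁o : IsOpen U₁ :=
    ψ.continuousOn_symm.isOpen_inter_preimage ψ.open_target (hC.isOpen a)
  have hx₁ : ψ (f x) ∈ U₁ := by
    refine ⟨ψ.map_source hys, ?_⟩
    show ψ.symm (ψ (f x)) ∈ U a
    rw [ψ.left_inv hys]
    exact ha
  have hPd : ∀ w, DifferentiableOn ℂ (fun p => π a (ψ.symm p) w) U₁ := by
    intro w p hp
    have h1 : HolV E' (fun y => π a y w) (ψ.symm p) := hC.hol a w _ hp.2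
    have h2 := h1.rep (ψ.map_target hp.1)
    rw [ψ.right_inv hp.1] at h2
    exact (h2.differentiableAt (by simp)).differentiableWithinAt
  have hG := gvl_analytic (T := T) (Q := Q) hn hk hT h₀ hU₁o
    (P := fun p => π a (ψ.symm p)) hPd (fun p hp => hC.polarized a _ hp.2)
    (B := fun y => β (R y)) (x₀ := (ψ (f x), ζ x)) hx₁ hB
  refine ⟨fun z => gval Q π₀ G₀ T (π a (ψ.symm (ψ (f z))))
    (fun t => β (R (ψ (f z), t))) (ζ z), ?_, ?_⟩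
  · exact HolV.comp_contDiff (v := fun z => (ψ (f z), ζ z)) hG.contDiffAt hpair
  · filter_upwards [slg_near hf hζ hR1 hR2 hR3, hC.near a x β hβ,
      (hf x).continuousAt.eventually ((hC.isOpen a).mem_nhds ha),
      (hf x).continuousAt.eventually (ψ.open_source.mem_nhds hys)] with z h1 h2 h4 h5
    rw [ψ.left_inv h5]
    exact hΘ a z h4 β h2 _ _ _ h1

/-- the uniform bound on tame slices -/
theorem form_bound (hC : IsAlbM E E' d r 𝒯 f S Q U π L) (hn : 0 < n)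
    (e₀ : E ≃L[ℂ] (E' × (Fin d → ℂ))) (hT : IsTerm wt k T) (hk : 2 * (n * n + 1) ≤ k)
    (h₀ : IsPol Q π₀ G₀) {Θ : X → ℂ}
    (hΘ : IsVal e₀ Q π₀ G₀ T wt f U π L Θ) {ρ K : ℝ} (hρ : 0 < ρ) (hKK : 0 < K) :
    ∃ C : ℝ, ∀ (v₀ : Fin d → ℂ) (q : (Fin d → ℂ) → X),
      (∀ v ∈ ball v₀ ρ, ContMDiffAt 𝓘(ℂ, Fin d → ℂ) 𝓘(ℂ, E) ω q v) → InjOn q (ball v₀ ρ) →
      (∀ v ∈ ball v₀ ρ, f (q v) = f (q v₀)) → f (q v₀) ∉ S → 𝒯 K q v₀ ρ →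
      ∀ P : E →L[ℂ] (Fin d → ℂ),
      P.comp (mfderiv 𝓘(ℂ, Fin d → ℂ) 𝓘(ℂ, E) q v₀ : (Fin d → ℂ) →L[ℂ] E) =
        ContinuousLinearMap.id ℂ (Fin d → ℂ) →
      ‖Θ (q v₀)‖ ≤ C * ‖JP e₀ (dM E E' f (q v₀)) P ^ wt‖ := by
  obtain ⟨A, hA⟩ := hC.bound ρ K hρ hKK
  have hρ2 : 0 < ρ / 2 := half_pos hρ
  have hA0 : 0 ≤ max A 0 := le_max_right _ _
  obtain ⟨C, hC0, hCb⟩ := gvl_bound (Q := Q) (π₀ := π₀) (G₀ := G₀) hn hρ2 hA0 hT hk h₀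
  refine ⟨C, fun v₀ q h1 h2 h3 h4 hTm P h5 => ?_⟩
  obtain ⟨a, ha⟩ := (hC.cover _).1 h4
  obtain ⟨h, hh1, ⟨β, hβ, hβh⟩, hh3⟩ := hA a q v₀ ⟨h1, h2, h3⟩ hTm ha
  obtain ⟨G, hG⟩ : ∃ G, IsPol Q (π a (f (q v₀))) G := hC.polarized a _ ha
  have hv₀ : v₀ ∈ ball v₀ ρ := mem_ball_self hρ
  have hslc : SlG E f q v₀ (q v₀) P :=
    ⟨rfl, h1 v₀ hv₀, eventually_of_mem (ball_mem_nhds v₀ hρ) h3, h5⟩
  rw [hΘ a _ ha β hβ q v₀ P hslc, gvl_congr hT hβh, norm_mul]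
  refine mul_le_mul_of_nonneg_right ?_ (norm_nonneg _)
  have hsub : ball v₀ (ρ / 2) ⊆ ball v₀ ρ := ball_subset_ball (by linarith)
  refine hCb _ G hG h v₀ (hh1.mono hsub) fun v hv => ?_
  exact (hh3 G hG v hv).trans (le_max_left _ _)

theorem relForm (hC : IsAlbM E E' d r 𝒯 f S Q U π L) (hn : 0 < n)
    (hf : ∀ x, HolM E E' f x) (e₀ : E ≃L[ℂ] (E' × (Fin d → ℂ))) (hT : IsTerm wt k T)
    (hk : 2 * (n * n + 1) ≤ k) (h₀ : IsPol Q π₀ G₀) {Θ : X → ℂ}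
    (hΘ : IsVal e₀ Q π₀ G₀ T wt f U π L Θ) :
    RelFormT 𝒯 f S e₀ wt ∅ (fun _ => 0) Θ := by
  refine ⟨hol_of_local hf e₀ ?_, ?_⟩
  · intro x hx T eD _ _
    obtain ⟨ζ, hζ, hinj⟩ := hC.coord x hx
    obtain ⟨c, hc, hev⟩ := form_local hC hn hf e₀ hT (by omega) h₀ hΘ hx hζ hinj
    refine ⟨ζ, c, hζ, hc, ?_⟩
    filter_upwards [hev] with z h4 _ _
    simp only [pow_zero, Finset.prod_const_one, mul_one]
    exact h4
  · intro ρ K hρ hK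
    obtain ⟨C, hC'⟩ := form_bound hC hn e₀ hT hk h₀ hΘ hρ hK
    exact ⟨C, fun v₀ q h1 h2 h3 h4 _ h5 P h6 => hC' v₀ q h1 h2 h3 h4 h5 P h6⟩

end Forms

end Vale.Agent.P281.H511.E
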